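import Mathlib
import Vale.Agent.P116.KF.Spec

/-!
# Full Koebe, [7]: the local form of the adaptation lemma (one node, with the budget)
-/

open Set Filter Topology Metric Bornology MeasureTheory

namespace Vale.Agent.P116.AD

open H906 KB KF

/-- **the local form of [7]**: one node `nd K n x`, a finite set `F` of components, `V` bounds the
square oscillations at the other components inside the node, `A` bounds the energies and the area;
`C` depends only on the number of functions -/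
def LocAD : Prop := ∀ N : ℕ, ∃ C : ℝ, 0 ≤ C ∧ ∀ {K : Set ℂ} (_ : IsCompact K) (_ : Full K)
    {n : ℕ} {x : ℂ} (_ : x ∈ K) {u ρ : Fin N → ℂ → ℝ} (_ : ∀ i, Hon K (nd K n x) (u i) (ρ i))
    (_ : ∀ i, SMon K (nd K n x) (u i))
    (_ : ∀ i j, i ≠ j → volume (Zs K (nd K n x) (u i) (u j)) = 0)
    (F : Finset (Set ℂ)) {V A : ℝ}
    (_ : ∀ i, ∀ J : Finset (Set ℂ), (∀ c ∈ J, c ∈ comps K ∧ c ⊆ nd K n x ∧ c ∉ F) →
      ∑ c ∈ J, oscC K (u i) c ^ 2 ≤ V)
    (_ : ∀ i, (∫⁻ z in nd K n x \ K, (ENNReal.ofReal (ρ i z ^ 2) + 1)).toReal ≤ A)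
    {δ : ℝ} (_ : 0 < δ),
    ∃ S, G.NS K (nd K n x) S ∧ (∀ y ∈ K, y ∈ nd K n x → ∃ P ∈ S, y ∈ P) ∧
      ∀ i, ∑ᶠ P ∈ S, oscS K (u i) P ^ 2 ≤ Eo K (nd K n x) (u i) + C * (V + A) + δ

end Vale.Agent.P116.AD
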