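import Mathlib

/-!
# From finite sets of lattice points to closed sets of the plane

The plane is triangulated: vertices `d (x + i y)`, `x, y` integers, squares cut by the diagonal in
the direction `(1,1)`. `St d v` is the open star of the vertex `v`, an open hexagon, and `Rl d X` is
the full subcomplex spanned by `X`, i.e. the complement of the union of the stars of the vertices
which do not belong to `X`.
-/

open Set Filter Topology Metric

namespace Vale.Agent.P116.Star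

/-- neighbours in the triangular lattice -/
def Adj (a b : ℤ × ℤ) : Prop :=
  a ≠ b ∧ |a.1 - b.1| ≤ 1 ∧ |a.2 - b.2| ≤ 1 ∧ |(a.1 - b.1) - (a.2 - b.2)| ≤ 1

lemma Adj.symm {a b : ℤ × ℤ} (h : Adj a b) : Adj b a := by
  obtain ⟨h1, h2, h3, h4⟩ := h
  refine ⟨h1.symm, ?_, ?_, ?_⟩
  · rwa [abs_sub_comm]
  · rwa [abs_sub_comm]
  · rw [← abs_neg]
    convert h4 using 2
    ring

/-- a walk in `X` -/
def Wk (X : Set (ℤ × ℤ)) (a b : ℤ × ℤ) : Prop :=
  Relation.ReflTransGen (fun x y => y ∈ X ∧ Adj x y) a b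

/-- lattice connected sets -/
def LConn (X : Set (ℤ × ℤ)) : Prop := ∀ a ∈ X, ∀ b ∈ X, Wk X a b

lemma Wk.mem {X : Set (ℤ × ℤ)} {a b : ℤ × ℤ} (h : Wk X a b) (ha : a ∈ X) : b ∈ X := by
  induction h with
  | refl => exact ha
  | tail _ h1 _ => exact h1.1

lemma Wk.symm {X : Set (ℤ × ℤ)} {a b : ℤ × ℤ} (h : Wk X a b) (ha : a ∈ X) : Wk X b a := by
  induction h with
  | refl => exact Relation.ReflTransGen.refl
  | @tail b c h1 h2 ih =>
    exact Relation.ReflTransGen.head ⟨Wk.mem h1 ha, h2.2.symm⟩ ih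

lemma Wk.trans {X : Set (ℤ × ℤ)} {a b c : ℤ × ℤ} (h : Wk X a b) (h' : Wk X b c) : Wk X a c :=
  Relation.ReflTransGen.trans h h'

/-- the vertex `v` as a point of the plane -/
noncomputable def pt (d : ℝ) (v : ℤ × ℤ) : ℂ := ⟨d * v.1, d * v.2⟩

/-- the open star of `v` -/
def St (d : ℝ) (v : ℤ × ℤ) : Set ℂ :=
  {z | |z.re / d - v.1| < 1 ∧ |z.im / d - v.2| < 1 ∧ |(z.re / d - v.1) - (z.im / d - v.2)| < 1}

/-- the subcomplex spanned by `X` -/
def Rl (d : ℝ) (X : Set (ℤ × ℤ)) : Set ℂ := {z | ∀ v, z ∈ St d v → v ∈ X}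

variable {d : ℝ}

lemma isOpen_St (d : ℝ) (v : ℤ × ℤ) : IsOpen (St d v) := by
  have h1 : Continuous fun z : ℂ => z.re / d := Complex.continuous_re.div_const d
  have h2 : Continuous fun z : ℂ => z.im / d := Complex.continuous_im.div_const d
  have e : St d v = {z : ℂ | |z.re / d - v.1| < 1} ∩ ({z : ℂ | |z.im / d - v.2| < 1} ∩
      {z : ℂ | |(z.re / d - v.1) - (z.im / d - v.2)| < 1}) := rfl
  rw [e]
  refine IsOpen.inter ?_ (IsOpen.inter ?_ ?_)
  · exact isOpen_lt (h1.sub continuous_const).abs continuous_const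
  · exact isOpen_lt (h2.sub continuous_const).abs continuous_const
  · exact isOpen_lt ((h1.sub continuous_const).sub (h2.sub continuous_const)).abs continuous_const

lemma convex_St (d : ℝ) (v : ℤ × ℤ) : Convex ℝ (St d v) := by
  intro z hz w hw a b ha hb hab
  obtain ⟨h1, h2, h3⟩ := hz
  obtain ⟨h4, h5, h6⟩ := hw
  rw [abs_lt] at h1 h2 h3 h4 h5 h6
  have e1 : (a • z + b • w).re = a * z.re + b * w.re := by simp
  have e2 : (a • z + b • w).im = a * z.im + b * w.im := by simp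
  have hb' : b = 1 - a := by linarith
  have key : ∀ s t : ℝ, -1 < s → s < 1 → -1 < t → t < 1 → |a * s + b * t| < 1 := by
    intro s t hs1 hs2 ht1 ht2
    rw [abs_lt]
    rcases ha.eq_or_lt with h | h
    · have : b = 1 := by linarith
      subst this
      rw [← h]
      constructor <;> linarith
    · constructor
      · nlinarith [mul_lt_mul_of_pos_left hs1 h, mul_le_mul_of_nonneg_left ht1.le hb]
      · nlinarith [mul_lt_mul_of_pos_left hs2 h, mul_le_mul_of_nonneg_left ht2.le hb]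
  refine ⟨?_, ?_, ?_⟩
  · rw [e1]
    have e : (a * z.re + b * w.re) / d - v.1 = a * (z.re / d - v.1) + b * (w.re / d - v.1) := by
      rw [hb']; ring
    rw [e]
    exact key _ _ h1.1 h1.2 h4.1 h4.2
  · rw [e2]
    have e : (a * z.im + b * w.im) / d - v.2 = a * (z.im / d - v.2) + b * (w.im / d - v.2) := by
      rw [hb']; ring
    rw [e]
    exact key _ _ h2.1 h2.2 h5.1 h5.2
  · rw [e1, e2]
    have e : (a * z.re + b * w.re) / d - v.1 - ((a * z.im + b * w.im) / d - v.2) =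
        a * ((z.re / d - v.1) - (z.im / d - v.2)) + b * ((w.re / d - v.1) - (w.im / d - v.2)) := by
      rw [hb']; ring
    rw [e]
    exact key _ _ h3.1 h3.2 h6.1 h6.2

lemma isPreconnected_St (d : ℝ) (v : ℤ × ℤ) : IsPreconnected (St d v) :=
  (convex_St d v).isPreconnected

lemma pt_mem_St (hd : 0 < d) (v : ℤ × ℤ) : pt d v ∈ St d v := by
  have e1 : (pt d v).re / d - v.1 = 0 := by
    simp only [pt]
    field_simp
    ring
  have e2 : (pt d v).im / d - v.2 = 0 := by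
    simp only [pt]
    field_simp
    ring
  refine ⟨?_, ?_, ?_⟩
  · rw [e1]; simp
  · rw [e2]; simp
  · rw [e1, e2]; simp

/-- the lower left vertex of the square of `z` -/
noncomputable def fv (d : ℝ) (z : ℂ) : ℤ × ℤ := (⌊z.re / d⌋, ⌊z.im / d⌋)

lemma mem_St_fv (d : ℝ) (z : ℂ) : z ∈ St d (fv d z) := by
  have h1 := Int.floor_le (z.re / d)
  have h2 := Int.lt_floor_add_one (z.re / d)
  have h3 := Int.floor_le (z.im / d)
  have h4 := Int.lt_floor_add_one (z.im / d)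
  refine ⟨?_, ?_, ?_⟩
  · rw [abs_lt]; simp only [fv]; constructor <;> linarith
  · rw [abs_lt]; simp only [fv]; constructor <;> linarith
  · rw [abs_lt]; simp only [fv]; constructor <;> linarith

lemma iUnion_St (d : ℝ) : ⋃ v, St d v = univ :=
  eq_univ_of_forall fun z => mem_iUnion.2 ⟨fv d z, mem_St_fv d z⟩

/-- the stars of two vertices meet only if the vertices are equal or adjacent -/
lemma eq_or_adj {z : ℂ} {v w : ℤ × ℤ} (hv : z ∈ St d v) (hw : z ∈ St d w) :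
    v = w ∨ Adj v w := by
  by_cases h : v = w
  · exact Or.inl h
  refine Or.inr ⟨h, ?_, ?_, ?_⟩
  · have h1 := hv.1
    have h2 := hw.1
    rw [abs_lt] at h1 h2
    have h3 : ((v.1 - w.1 : ℤ) : ℝ) < 2 := by push_cast; linarith
    have h4 : (-2 : ℝ) < ((v.1 - w.1 : ℤ) : ℝ) := by push_cast; linarith
    have h5 : v.1 - w.1 < 2 := by exact_mod_cast h3
    have h6 : -2 < v.1 - w.1 := by exact_mod_cast h4
    rw [abs_le]; omega
  · have h1 := hv.2.1
    have h2 := hw.2.1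
    rw [abs_lt] at h1 h2
    have h3 : ((v.2 - w.2 : ℤ) : ℝ) < 2 := by push_cast; linarith
    have h4 : (-2 : ℝ) < ((v.2 - w.2 : ℤ) : ℝ) := by push_cast; linarith
    have h5 : v.2 - w.2 < 2 := by exact_mod_cast h3
    have h6 : -2 < v.2 - w.2 := by exact_mod_cast h4
    rw [abs_le]; omega
  · have h1 := hv.2.2
    have h2 := hw.2.2
    rw [abs_lt] at h1 h2
    have h3 : (((v.1 - w.1) - (v.2 - w.2) : ℤ) : ℝ) < 2 := by push_cast; linarith
    have h4 : (-2 : ℝ) < (((v.1 - w.1) - (v.2 - w.2) : ℤ) : ℝ) := by push_cast; linarith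
    have h5 : (v.1 - w.1) - (v.2 - w.2) < 2 := by exact_mod_cast h3
    have h6 : -2 < (v.1 - w.1) - (v.2 - w.2) := by exact_mod_cast h4
    rw [abs_le]; omega

/-- points of the segment between adjacent vertices -/
lemma mem_St_segment (hd : 0 < d) {v w : ℤ × ℤ} (h : Adj v w) {t : ℝ} (ht0 : 0 ≤ t) (ht1 : t ≤ 1)
    {x : ℤ × ℤ} (hx : (1 - t) • pt d v + t • pt d w ∈ St d x) : x = v ∨ x = w := by
  obtain ⟨h1, h2, h3⟩ := hx
  have e1 : ((1 - t) • pt d v + t • pt d w).re / d = v.1 + t * (w.1 - v.1) := by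
    simp only [pt, Complex.add_re, Complex.real_smul, Complex.mul_re, Complex.ofReal_re,
      Complex.ofReal_im, zero_mul, sub_zero]
    field_simp
    ring
  have e2 : ((1 - t) • pt d v + t • pt d w).im / d = v.2 + t * (w.2 - v.2) := by
    simp only [pt, Complex.add_im, Complex.real_smul, Complex.mul_im, Complex.ofReal_re,
      Complex.ofReal_im, zero_mul, add_zero]
    field_simp
    ring
  rw [e1] at h1
  rw [e2] at h2
  rw [e1, e2] at h3
  obtain ⟨hne, ha, hb, hc⟩ := h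
  rw [abs_le] at ha hb hc
  -- possible differences
  have hp : (w.1 - v.1 = 1 ∧ w.2 - v.2 = 0) ∨ (w.1 - v.1 = -1 ∧ w.2 - v.2 = 0) ∨
      (w.1 - v.1 = 0 ∧ w.2 - v.2 = 1) ∨ (w.1 - v.1 = 0 ∧ w.2 - v.2 = -1) ∨
      (w.1 - v.1 = 1 ∧ w.2 - v.2 = 1) ∨ (w.1 - v.1 = -1 ∧ w.2 - v.2 = -1) := by
    have h0 : ¬ (w.1 - v.1 = 0 ∧ w.2 - v.2 = 0) := by
      rintro ⟨h4, h5⟩
      exact hne (Prod.ext (by omega) (by omega))
    omega
  have hgen : ∀ (p q : ℤ), w.1 - v.1 = p → w.2 - v.2 = q →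
      |(v.1 - x.1 : ℝ) + t * p| < 1 ∧ |(v.2 - x.2 : ℝ) + t * q| < 1 ∧
      |((v.1 - x.1 : ℝ) + t * p) - ((v.2 - x.2 : ℝ) + t * q)| < 1 := by
    intro p q hp hq
    have hp' : (w.1 : ℝ) - v.1 = p := by exact_mod_cast hp
    have hq' : (w.2 : ℝ) - v.2 = q := by exact_mod_cast hq
    rw [hp'] at h1 h3
    rw [hq'] at h2 h3
    refine ⟨?_, ?_, ?_⟩
    · convert h1 using 2; ring
    · convert h2 using 2; ring
    · convert h3 using 2; ring
  obtain ⟨A, hA⟩ : ∃ A : ℤ, A = v.1 - x.1 := ⟨_, rfl⟩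
  obtain ⟨B, hB⟩ : ∃ B : ℤ, B = v.2 - x.2 := ⟨_, rfl⟩
  have hA' : (v.1 : ℝ) - x.1 = A := by rw [hA]; push_cast; ring
  have hB' : (v.2 : ℝ) - x.2 = B := by rw [hB]; push_cast; ring
  simp only [hA', hB'] at hgen
  have hint : ∀ (n : ℤ) (s : ℝ), -1 ≤ s → s ≤ 1 → |(n : ℝ) + s| < 1 → -1 ≤ n ∧ n ≤ 1 := by
    intro n s hs1 hs2 hn
    rw [abs_lt] at hn
    have h4 : (n : ℝ) < 2 := by linarith
    have h5 : (-2 : ℝ) < n := by linarith
    have h6 : n < 2 := by exact_mod_cast h4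
    have h7 : -2 < n := by exact_mod_cast h5
    omega
  have fin : (A = 0 ∧ B = 0) ∨ (A = v.1 - w.1 ∧ B = v.2 - w.2) → x = v ∨ x = w := by
    rintro (⟨h4, h5⟩ | ⟨h4, h5⟩)
    · exact Or.inl (Prod.ext (by omega) (by omega))
    · exact Or.inr (Prod.ext (by omega) (by omega))
  apply fin
  rcases hp with ⟨p, q⟩ | ⟨p, q⟩ | ⟨p, q⟩ | ⟨p, q⟩ | ⟨p, q⟩ | ⟨p, q⟩ <;>
  · obtain ⟨g1, g2, g3⟩ := hgen _ _ p q
    obtain ⟨a1, a2⟩ := hint A _ (by push_cast; linarith) (by push_cast; linarith) g1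
    obtain ⟨b1, b2⟩ := hint B _ (by push_cast; linarith) (by push_cast; linarith) g2
    rw [abs_lt] at g1 g2 g3
    push_cast at g1 g2 g3
    have hA3 : A = -1 ∨ A = 0 ∨ A = 1 := by omega
    have hB3 : B = -1 ∨ B = 0 ∨ B = 1 := by omega
    rcases hA3 with rfl | rfl | rfl <;> rcases hB3 with rfl | rfl | rfl <;>
      first
        | (left; constructor <;> rfl)
        | (right; constructor <;> omega)
        | (exfalso; push_cast at g1 g2 g3; obtain ⟨g1, g1'⟩ := g1; obtain ⟨g2, g2'⟩ := g2;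
           obtain ⟨g3, g3'⟩ := g3; linarith)

/-! ### subcomplexes -/

lemma compl_Rl (d : ℝ) (X : Set (ℤ × ℤ)) : (Rl d X)ᶜ = ⋃ v ∈ Xᶜ, St d v := by
  ext z
  simp only [Rl, mem_compl_iff, mem_ofPred_eq, not_forall, mem_iUnion, exists_prop]
  constructor
  · rintro ⟨v, h1, h2⟩
    exact ⟨v, h2, h1⟩
  · rintro ⟨v, h1, h2⟩
    exact ⟨v, h2, h1⟩

lemma isClosed_Rl (d : ℝ) (X : Set (ℤ × ℤ)) : IsClosed (Rl d X) := by
  rw [← isOpen_compl_iff, compl_Rl]
  exact isOpen_biUnion fun v _ => isOpen_St d v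

lemma Rl_mono {X Y : Set (ℤ × ℤ)} (h : X ⊆ Y) : Rl d X ⊆ Rl d Y := fun _ hz v hv => h (hz v hv)

lemma fv_mem {X : Set (ℤ × ℤ)} {z : ℂ} (hz : z ∈ Rl d X) : fv d z ∈ X := hz _ (mem_St_fv d z)

lemma Rl_subset (d : ℝ) (X : Set (ℤ × ℤ)) : Rl d X ⊆ ⋃ v ∈ X, St d v := by
  intro z hz
  exact mem_iUnion₂.2 ⟨_, fv_mem hz, mem_St_fv d z⟩

lemma Rl_disjoint {X Y : Set (ℤ × ℤ)} (h : Disjoint X Y) : Disjoint (Rl d X) (Rl d Y) := by
  rw [disjoint_left]
  intro z h1 h2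
  exact disjoint_left.1 h (fv_mem h1) (fv_mem h2)

lemma pt_mem_Rl (hd : 0 < d) {X : Set (ℤ × ℤ)} {v : ℤ × ℤ} (hv : v ∈ X) : pt d v ∈ Rl d X := by
  intro x hx
  obtain ⟨h1, h2, h3⟩ := hx
  have e1 : (pt d v).re / d = v.1 := by
    simp only [pt]
    field_simp
  have e2 : (pt d v).im / d = v.2 := by
    simp only [pt]
    field_simp
  rw [e1, abs_lt] at h1
  rw [e2, abs_lt] at h2
  have h4 : ((v.1 - x.1 : ℤ) : ℝ) < 1 := by push_cast; linarith
  have h5 : (-1 : ℝ) < ((v.1 - x.1 : ℤ) : ℝ) := by push_cast; linarith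
  have h6 : ((v.2 - x.2 : ℤ) : ℝ) < 1 := by push_cast; linarith
  have h7 : (-1 : ℝ) < ((v.2 - x.2 : ℤ) : ℝ) := by push_cast; linarith
  have h8 : v.1 - x.1 < 1 := by exact_mod_cast h4
  have h9 : -1 < v.1 - x.1 := by exact_mod_cast h5
  have h10 : v.2 - x.2 < 1 := by exact_mod_cast h6
  have h11 : -1 < v.2 - x.2 := by exact_mod_cast h7
  have : x = v := Prod.ext (by omega) (by omega)
  rw [this]
  exact hv

lemma St_subset_closedBall (hd : 0 < d) (v : ℤ × ℤ) : St d v ⊆ closedBall (pt d v) (2 * d) := by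
  intro z hz
  obtain ⟨h1, h2, -⟩ := hz
  rw [abs_lt] at h1 h2
  rw [mem_closedBall, dist_eq_norm]
  have e1 : z.re / d - v.1 = (z.re - d * v.1) / d := by field_simp
  have e2 : z.im / d - v.2 = (z.im - d * v.2) / d := by field_simp
  rw [e1, div_lt_iff₀ hd, lt_div_iff₀ hd] at h1
  rw [e2, div_lt_iff₀ hd, lt_div_iff₀ hd] at h2
  have h3 : |(z - pt d v).re| ≤ d := by
    simp only [pt, Complex.sub_re]
    rw [abs_le]
    constructor <;> linarith
  have h4 : |(z - pt d v).im| ≤ d := by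
    simp only [pt, Complex.sub_im]
    rw [abs_le]
    constructor <;> linarith
  calc ‖z - pt d v‖ ≤ |(z - pt d v).re| + |(z - pt d v).im| := Complex.norm_le_abs_re_add_abs_im _
    _ ≤ 2 * d := by linarith

lemma isCompact_Rl (hd : 0 < d) {X : Set (ℤ × ℤ)} (hX : X.Finite) : IsCompact (Rl d X) := by
  refine (isCompact_iff_isClosed_bounded.2 ⟨isClosed_Rl d X, ?_⟩)
  refine Bornology.IsBounded.subset ?_ (Rl_subset d X)
  rw [Bornology.isBounded_biUnion hX]
  intro v _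
  exact isBounded_closedBall.subset (St_subset_closedBall hd v)

lemma adj_meet (hd : 0 < d) {v w : ℤ × ℤ} (h : Adj v w) : (St d v ∩ St d w).Nonempty := by
  obtain ⟨hne, ha, hb, hc⟩ := h
  rw [abs_le] at ha hb hc
  have ha1 : (-1 : ℝ) ≤ (v.1 : ℝ) - w.1 := by exact_mod_cast ha.1
  have ha2 : (v.1 : ℝ) - w.1 ≤ 1 := by exact_mod_cast ha.2
  have hb1 : (-1 : ℝ) ≤ (v.2 : ℝ) - w.2 := by exact_mod_cast hb.1
  have hb2 : (v.2 : ℝ) - w.2 ≤ 1 := by exact_mod_cast hb.2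
  have hc1 : (-1 : ℝ) ≤ ((v.1 : ℝ) - w.1) - (v.2 - w.2) := by exact_mod_cast hc.1
  have hc2 : ((v.1 : ℝ) - w.1) - (v.2 - w.2) ≤ 1 := by exact_mod_cast hc.2
  refine ⟨⟨d * (((v.1 : ℝ) + w.1) / 2), d * (((v.2 : ℝ) + w.2) / 2)⟩, ?_, ?_⟩
  · have e1 : d * (((v.1 : ℝ) + w.1) / 2) / d = ((v.1 : ℝ) + w.1) / 2 := by field_simp
    have e2 : d * (((v.2 : ℝ) + w.2) / 2) / d = ((v.2 : ℝ) + w.2) / 2 := by field_simp
    refine ⟨?_, ?_, ?_⟩
    · simp only [e1]; rw [abs_lt]; constructor <;> linarith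
    · simp only [e2]; rw [abs_lt]; constructor <;> linarith
    · simp only [e1, e2]; rw [abs_lt]; constructor <;> linarith
  · have e1 : d * (((v.1 : ℝ) + w.1) / 2) / d = ((v.1 : ℝ) + w.1) / 2 := by field_simp
    have e2 : d * (((v.2 : ℝ) + w.2) / 2) / d = ((v.2 : ℝ) + w.2) / 2 := by field_simp
    refine ⟨?_, ?_, ?_⟩
    · simp only [e1]; rw [abs_lt]; constructor <;> linarith
    · simp only [e2]; rw [abs_lt]; constructor <;> linarith
    · simp only [e1, e2]; rw [abs_lt]; constructor <;> linarith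

/-- unions of stars over connected sets of vertices -/
lemma isPreconnected_iUnion_St (hd : 0 < d) {X : Set (ℤ × ℤ)} (hX : LConn X) :
    IsPreconnected (⋃ v ∈ X, St d v) := by
  refine IsPreconnected.biUnion_of_reflTransGen (fun v _ => isPreconnected_St d v) ?_
  intro a ha b hb
  have h := hX a ha b hb
  clear hb
  induction h with
  | refl => exact Relation.ReflTransGen.refl
  | @tail b c h1 h2 ih =>
    exact ih.tail ⟨adj_meet hd h2.2, Wk.mem h1 ha⟩

lemma isPreconnected_compl_Rl (hd : 0 < d) {X : Set (ℤ × ℤ)} (hX : LConn Xᶜ) :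
    IsPreconnected (Rl d X)ᶜ := by
  rw [compl_Rl]
  exact isPreconnected_iUnion_St hd hX

lemma fv_seg (hd : 0 < d) (z : ℂ) {t : ℝ} (ht0 : 0 ≤ t) (ht1 : t ≤ 1) {v : ℤ × ℤ}
    (h : (1 - t) • pt d (fv d z) + t • z ∈ St d v) : z ∈ St d v ∨ v = fv d z := by
  rcases ht0.eq_or_lt with h0 | h0
  · rw [← h0] at h
    simp only [sub_zero, one_smul, zero_smul, add_zero] at h
    right
    have h1 := pt_mem_Rl hd (X := {fv d z}) (mem_singleton _) v h
    exact h1
  obtain ⟨h1, h2, h3⟩ := h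
  have e1 : ((1 - t) • pt d (fv d z) + t • z).re / d = (1 - t) * (fv d z).1 + t * (z.re / d) := by
    simp only [pt, Complex.add_re, Complex.real_smul, Complex.mul_re, Complex.ofReal_re,
      Complex.ofReal_im, zero_mul, sub_zero]
    field_simp
  have e2 : ((1 - t) • pt d (fv d z) + t • z).im / d = (1 - t) * (fv d z).2 + t * (z.im / d) := by
    simp only [pt, Complex.add_im, Complex.real_smul, Complex.mul_im, Complex.ofReal_re,
      Complex.ofReal_im, zero_mul, add_zero]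
    field_simp
  rw [e1, abs_lt] at h1
  rw [e2, abs_lt] at h2
  rw [e1, e2, abs_lt] at h3
  have f1 := Int.floor_le (z.re / d)
  have f2 := Int.lt_floor_add_one (z.re / d)
  have f3 := Int.floor_le (z.im / d)
  have f4 := Int.lt_floor_add_one (z.im / d)
  set a : ℤ := ⌊z.re / d⌋ with ha
  set b : ℤ := ⌊z.im / d⌋ with hb
  have hfa : (fv d z).1 = a := rfl
  have hfb : (fv d z).2 = b := rfl
  rw [hfa] at h1 h3
  rw [hfb] at h2 h3
  set x : ℝ := z.re / d - a with hx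
  set y : ℝ := z.im / d - b with hy
  have hx0 : 0 ≤ x := by linarith
  have hx1 : x < 1 := by linarith
  have hy0 : 0 ≤ y := by linarith
  have hy1 : y < 1 := by linarith
  have g1 : (1 - t) * (a:ℝ) + t * (z.re / d) = a + t * x := by rw [hx]; ring
  have g2 : (1 - t) * (b:ℝ) + t * (z.im / d) = b + t * y := by rw [hy]; ring
  rw [g1] at h1 h3
  rw [g2] at h2 h3
  have tx0 : 0 ≤ t * x := by positivity
  have ty0 : 0 ≤ t * y := by positivity
  have tx1 : t * x < 1 := by nlinarith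
  have ty1 : t * y < 1 := by nlinarith
  -- integer differences
  obtain ⟨A, hA⟩ : ∃ A : ℤ, A = v.1 - a := ⟨_, rfl⟩
  obtain ⟨B, hB⟩ : ∃ B : ℤ, B = v.2 - b := ⟨_, rfl⟩
  have hA' : (v.1 : ℝ) = A + a := by rw [hA]; push_cast; ring
  have hB' : (v.2 : ℝ) = B + b := by rw [hB]; push_cast; ring
  rw [hA'] at h1 h3
  rw [hB'] at h2 h3
  have A1 : ((A : ℤ) : ℝ) < 2 := by linarith
  have A2 : (-1 : ℝ) < ((A : ℤ) : ℝ) := by linarith
  have B1 : ((B : ℤ) : ℝ) < 2 := by linarith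
  have B2 : (-1 : ℝ) < ((B : ℤ) : ℝ) := by linarith
  have A3 : A < 2 := by exact_mod_cast A1
  have A4 : -1 < A := by exact_mod_cast A2
  have B3 : B < 2 := by exact_mod_cast B1
  have B4 : -1 < B := by exact_mod_cast B2
  have z1 : z.re / d = a + x := by rw [hx]; ring
  have z2 : z.im / d = b + y := by rw [hy]; ring
  have main : |x - A| < 1 → |y - B| < 1 → |(x - A) - (y - B)| < 1 → z ∈ St d v := by
    intro m1 m2 m3
    refine ⟨?_, ?_, ?_⟩
    · rw [z1, hA']; convert m1 using 2; ring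
    · rw [z2, hB']; convert m2 using 2; ring
    · rw [z1, z2, hA', hB']; convert m3 using 2; ring
  have hA5 : A = 0 ∨ A = 1 := by omega
  have hB5 : B = 0 ∨ B = 1 := by omega
  rcases hA5 with rfl | rfl <;> rcases hB5 with rfl | rfl
  · right
    exact Prod.ext (by rw [hfa]; omega) (by rw [hfb]; omega)
  · left
    push_cast at h1 h2 h3
    have k1 : 0 < t * y := by linarith
    have k2 : t * x < t * y := by linarith
    have k3 : x < y := lt_of_mul_lt_mul_left k2 ht0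
    refine main ?_ ?_ ?_ <;> rw [abs_lt] <;> push_cast <;> constructor <;> linarith
  · left
    push_cast at h1 h2 h3
    have k2 : t * y < t * x := by linarith
    have k3 : y < x := lt_of_mul_lt_mul_left k2 ht0
    refine main ?_ ?_ ?_ <;> rw [abs_lt] <;> push_cast <;> constructor <;> linarith
  · left
    push_cast at h1 h2 h3
    have k1 : 0 < t * x := by linarith
    have k2 : 0 < t * y := by linarith
    have k3 : 0 < x := (mul_pos_iff_of_pos_left h0).1 k1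
    have k4 : 0 < y := (mul_pos_iff_of_pos_left h0).1 k2
    refine main ?_ ?_ ?_ <;> rw [abs_lt] <;> push_cast <;> constructor <;> linarith

/-- joined inside `A` -/
def Jn (A : Set ℂ) (x y : ℂ) : Prop := ∃ t ⊆ A, x ∈ t ∧ y ∈ t ∧ IsPreconnected t

lemma Jn.trans {A : Set ℂ} {x y z : ℂ} (h : Jn A x y) (h' : Jn A y z) : Jn A x z := by
  obtain ⟨t, h1, h2, h3, h4⟩ := h
  obtain ⟨t', h1', h2', h3', h4'⟩ := h'
  exact ⟨t ∪ t', union_subset h1 h1', Or.inl h2, Or.inr h3', h4.union y h3 h2' h4'⟩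

lemma Jn.symm {A : Set ℂ} {x y : ℂ} (h : Jn A x y) : Jn A y x := by
  obtain ⟨t, h1, h2, h3, h4⟩ := h
  exact ⟨t, h1, h3, h2, h4⟩

lemma jn_fv (hd : 0 < d) {X : Set (ℤ × ℤ)} {z : ℂ} (hz : z ∈ Rl d X) :
    Jn (Rl d X) (pt d (fv d z)) z := by
  refine ⟨segment ℝ (pt d (fv d z)) z, ?_, left_mem_segment _ _ _, right_mem_segment _ _ _,
    (convex_segment _ _).isPreconnected⟩
  rintro w ⟨a, b, ha, hb, hab, rfl⟩ v hv
  have : a = 1 - b := by linarith
  rw [this] at hv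
  rcases fv_seg hd z hb (by linarith) hv with h | h
  · exact hz v h
  · rw [h]
    exact fv_mem hz

lemma jn_adj (hd : 0 < d) {X : Set (ℤ × ℤ)} {v w : ℤ × ℤ} (hv : v ∈ X) (hw : w ∈ X)
    (h : Adj v w) : Jn (Rl d X) (pt d v) (pt d w) := by
  refine ⟨segment ℝ (pt d v) (pt d w), ?_, left_mem_segment _ _ _, right_mem_segment _ _ _,
    (convex_segment _ _).isPreconnected⟩
  rintro z ⟨a, b, ha, hb, hab, rfl⟩ x hx
  have : a = 1 - b := by linarith
  rw [this] at hx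
  rcases mem_St_segment hd h hb (by linarith) hx with h | h
  · exact h ▸ hv
  · exact h ▸ hw

lemma isPreconnected_Rl (hd : 0 < d) {X : Set (ℤ × ℤ)} (hX : LConn X) :
    IsPreconnected (Rl d X) := by
  refine isPreconnected_of_forall_pair fun x hx y hy => ?_
  have h1 : ∀ {b}, Wk X (fv d x) b → Jn (Rl d X) (pt d (fv d x)) (pt d b) := by
    intro b hb
    induction hb with
    | refl =>
      exact ⟨{pt d (fv d x)}, singleton_subset_iff.2 (pt_mem_Rl hd (fv_mem hx)), mem_singleton _,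
        mem_singleton _, isPreconnected_singleton⟩
    | @tail b c h2 h3 ih => exact ih.trans (jn_adj hd (Wk.mem h2 (fv_mem hx)) h3.1 h3.2)
  obtain ⟨t, h2, h3, h4, h5⟩ :=
    ((jn_fv hd hx).symm.trans (h1 (hX _ (fv_mem hx) _ (fv_mem hy)))).trans (jn_fv hd hy)
  exact ⟨t, h2, h3, h4, h5⟩

/-! ### vertices whose star meets a connected set -/

lemma lconn_touch (d : ℝ) {A : Set ℂ} (hA : IsPreconnected A) :
    LConn {v | (St d v ∩ A).Nonempty} := by
  intro a ha b hb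
  by_contra hab
  set X : Set (ℤ × ℤ) := {v | (St d v ∩ A).Nonempty} with hX
  set U : Set ℂ := ⋃ v ∈ {v | Wk X a v}, St d v with hU
  set V : Set ℂ := ⋃ v ∈ {v | v ∈ X ∧ ¬ Wk X a v}, St d v with hV
  have hUo : IsOpen U := isOpen_biUnion fun v _ => isOpen_St d v
  have hVo : IsOpen V := isOpen_biUnion fun v _ => isOpen_St d v
  have hcov : A ⊆ U ∪ V := by
    intro z hz
    have h1 : fv d z ∈ X := ⟨z, mem_St_fv d z, hz⟩
    by_cases h2 : Wk X a (fv d z)
    · exact Or.inl (mem_iUnion₂.2 ⟨_, h2, mem_St_fv d z⟩)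
    · exact Or.inr (mem_iUnion₂.2 ⟨_, ⟨h1, h2⟩, mem_St_fv d z⟩)
  obtain ⟨z1, h1, h1'⟩ := ha
  obtain ⟨z2, h2, h2'⟩ := hb
  obtain ⟨z, hzA, hzU, hzV⟩ := hA U V hUo hVo hcov
    ⟨z1, h1', mem_iUnion₂.2 ⟨a, Relation.ReflTransGen.refl, h1⟩⟩
    ⟨z2, h2', mem_iUnion₂.2 ⟨b, ⟨⟨z2, h2, h2'⟩, hab⟩, h2⟩⟩
  obtain ⟨v, hv, hzv⟩ := mem_iUnion₂.1 hzU
  obtain ⟨w, ⟨hw, hw'⟩, hzw⟩ := mem_iUnion₂.1 hzV
  rcases eq_or_adj hzv hzw with h3 | h3
  · exact hw' (h3 ▸ hv)
  · exact hw' (Relation.ReflTransGen.tail hv ⟨hw, h3⟩)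

lemma sub_touch (d : ℝ) (A : Set ℂ) : A ⊆ Rl d {v | (St d v ∩ A).Nonempty} :=
  fun z hz _ hv => ⟨z, hv, hz⟩

/-- vertices whose star is inside `w` -/
def Ins (d : ℝ) (w : Set ℂ) : Set (ℤ × ℤ) := {v | St d v ⊆ w}

lemma compl_Ins (d : ℝ) (w : Set ℂ) : (Ins d w)ᶜ = {v | (St d v ∩ wᶜ).Nonempty} := by
  ext v
  simp only [Ins, mem_compl_iff, mem_ofPred_eq]
  rw [← disjoint_compl_right_iff_subset, not_disjoint_iff_nonempty_inter]

lemma lconn_compl_Ins (d : ℝ) {w : Set ℂ} (hw : IsPreconnected wᶜ) : LConn (Ins d w)ᶜ := by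
  rw [compl_Ins]
  exact lconn_touch d hw

lemma Rl_subset_of_subset_Ins {X : Set (ℤ × ℤ)} {w : Set ℂ} (h : X ⊆ Ins d w) : Rl d X ⊆ w := by
  intro z hz
  exact h (fv_mem hz) (mem_St_fv d z)

/-- a bounded set meets finitely many stars -/
lemma finite_touch (hd : 0 < d) {A : Set ℂ} (hA : Bornology.IsBounded A) :
    {v | (St d v ∩ A).Nonempty}.Finite := by
  obtain ⟨R, hR⟩ := hA.subset_closedBall (0:ℂ)
  obtain ⟨N, hN⟩ := exists_nat_gt (|R| / d + 2)
  refine (Set.finite_Icc ((-(N:ℤ), -(N:ℤ)) : ℤ × ℤ) (N, N)).subset ?_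
  rintro v ⟨z, ⟨h1, h2, -⟩, hz⟩
  have h3 := hR hz
  rw [mem_closedBall, dist_zero_right] at h3
  have h4 : |z.re| ≤ |R| := (Complex.abs_re_le_norm z).trans (h3.trans (le_abs_self R))
  have h5 : |z.im| ≤ |R| := (Complex.abs_im_le_norm z).trans (h3.trans (le_abs_self R))
  have h6 : |z.re / d| ≤ |R| / d := by
    rw [abs_div, abs_of_pos hd]
    gcongr
  have h7 : |z.im / d| ≤ |R| / d := by
    rw [abs_div, abs_of_pos hd]
    gcongr
  rw [abs_lt] at h1 h2
  rw [abs_le] at h6 h7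
  have a1 : (-(N:ℝ)) < v.1 := by linarith
  have a2 : (v.1 : ℝ) < N := by linarith
  have a3 : (-(N:ℝ)) < v.2 := by linarith
  have a4 : (v.2 : ℝ) < N := by linarith
  have b1 : -(N:ℤ) < v.1 := by exact_mod_cast a1
  have b2 : v.1 < N := by exact_mod_cast a2
  have b3 : -(N:ℤ) < v.2 := by exact_mod_cast a3
  have b4 : v.2 < N := by exact_mod_cast a4
  exact ⟨Prod.mk_le_mk.2 ⟨b1.le, b3.le⟩, Prod.mk_le_mk.2 ⟨b2.le, b4.le⟩⟩

lemma finite_Ins (hd : 0 < d) {w : Set ℂ} (hw : Bornology.IsBounded w) : (Ins d w).Finite := by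
  refine (finite_touch hd hw).subset fun v hv => ?_
  exact ⟨pt d v, pt_mem_St hd v, hv (pt_mem_St hd v)⟩

end Vale.Agent.P116.Star
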