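import Mathlib
import Vale.Agent.P116.Cl.H805.Star
import Vale.Agent.P116.H906.Esc

/-!
# Subcomplexes and filled sets; pieces
-/

open Set Filter Topology Metric

namespace Vale.Agent.P116.Star

open H906

variable {d : ℝ}

/-- the component of `v₁` in the complement of `X₀`, as an open set -/
lemma comp_open (hd : 0 < d) {X₀ : Set (ℤ × ℤ)} {v₁ : ℤ × ℤ} (hv₁ : v₁ ∉ X₀) :
    ∃ H H' : Set ℂ, H = (⋃ v ∈ {v | Wk X₀ᶜ v₁ v}, St d v) ∧ IsOpen H ∧ IsOpen H' ∧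
      IsPreconnected H ∧ (Rl d X₀)ᶜ = H ∪ H' ∧ Disjoint H H' ∧ St d v₁ ⊆ H := by
  refine ⟨⋃ v ∈ {v | Wk X₀ᶜ v₁ v}, St d v, ⋃ v ∈ {v | v ∉ X₀ ∧ ¬ Wk X₀ᶜ v₁ v}, St d v, rfl,
    isOpen_biUnion fun v _ => isOpen_St d v, isOpen_biUnion fun v _ => isOpen_St d v, ?_, ?_, ?_,
    ?_⟩
  · refine isPreconnected_iUnion_St hd ?_
    intro a ha b hb
    have h1 : Wk X₀ᶜ a b := (Wk.symm ha hv₁).trans hb
    -- the walk stays in the component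
    have h2 : ∀ {c}, Wk X₀ᶜ a c → Wk {v | Wk X₀ᶜ v₁ v} a c := by
      intro c hc
      induction hc with
      | refl => exact Relation.ReflTransGen.refl
      | @tail c e h3 h4 ih =>
        exact ih.tail ⟨(Wk.trans ha h3).trans (Relation.ReflTransGen.single h4), h4.2⟩
    exact h2 h1
  · rw [compl_Rl]
    apply Subset.antisymm
    · intro z hz
      obtain ⟨v, hv, hzv⟩ := mem_iUnion₂.1 hz
      by_cases h : Wk X₀ᶜ v₁ v
      · exact Or.inl (mem_iUnion₂.2 ⟨v, h, hzv⟩)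
      · exact Or.inr (mem_iUnion₂.2 ⟨v, ⟨hv, h⟩, hzv⟩)
    · rintro z (hz | hz)
      · obtain ⟨v, hv, hzv⟩ := mem_iUnion₂.1 hz
        exact mem_iUnion₂.2 ⟨v, Wk.mem hv hv₁, hzv⟩
      · obtain ⟨v, hv, hzv⟩ := mem_iUnion₂.1 hz
        exact mem_iUnion₂.2 ⟨v, hv.1, hzv⟩
  · rw [disjoint_left]
    intro z h1 h2
    obtain ⟨v, hv, hzv⟩ := mem_iUnion₂.1 h1
    obtain ⟨w, ⟨hw, hw'⟩, hzw⟩ := mem_iUnion₂.1 h2
    rcases eq_or_adj hzv hzw with h | h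
    · exact hw' (h ▸ hv)
    · exact hw' (Relation.ReflTransGen.tail hv ⟨hw, h⟩)
  · exact subset_biUnion_of_mem (u := fun v => St d v)
      (show v₁ ∈ {v | Wk X₀ᶜ v₁ v} from Relation.ReflTransGen.refl)

/-- `|X|` is contained in the filled set of `|X₀|` when `X` is the union of `X₀` and of components
of the complement of `X₀` -/
lemma Rl_subset_fil (hd : 0 < d) {X₀ X : Set (ℤ × ℤ)} (hX : X.Finite)
    (h : ∀ v ∈ X, v ∉ X₀ → ∀ v', Adj v v' → v' ∉ X₀ → v' ∈ X) : Rl d X ⊆ fil (Rl d X₀) := by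
  intro z hz hE
  obtain ⟨C, h1, h2, h3, h4⟩ := hE
  have hz0 : z ∈ (Rl d X₀)ᶜ := fun hz' => disjoint_left.1 h3 h2 hz'
  rw [compl_Rl] at hz0
  obtain ⟨v₁, hv₁, hzv⟩ := mem_iUnion₂.1 hz0
  obtain ⟨H, H', hH, hHo, hHo', -, hU, hdis, hsub⟩ := comp_open hd (X₀ := X₀) hv₁
  have hin : ∀ v, Wk X₀ᶜ v₁ v → v ∈ X := by
    intro v hv
    induction hv with
    | refl => exact hz v₁ hzv
    | @tail b c h5 h6 ih => exact h b ih (Wk.mem h5 hv₁) c h6.2 h6.1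
  have hCH : C ⊆ H := by
    refine h1.subset_left_of_subset_union hHo hHo' hdis ?_ ⟨z, h2, hsub hzv⟩
    rw [← hU]
    exact h3.subset_compl_right
  apply h4
  refine Bornology.IsBounded.subset ?_ hCH
  rw [hH]
  have hfin : {v | Wk X₀ᶜ v₁ v}.Finite := hX.subset fun v hv => hin v hv
  refine (Bornology.isBounded_biUnion hfin).2 ?_
  intro v _
  exact isBounded_closedBall.subset (St_subset_closedBall hd v)

lemma full_Rl (hd : 0 < d) {X : Set (ℤ × ℤ)} (hX : X.Finite) (hc : LConn Xᶜ) : Full (Rl d X) :=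
  full_of_isPreconnected_compl (isPreconnected_compl_Rl hd hc) (isCompact_Rl hd hX).isBounded

/-- for a full bounded set the vertices whose star is not inside are connected -/
lemma lconn_compl_Ins_of_full (d : ℝ) {w : Set ℂ} (hw : Full w) (hb : Bornology.IsBounded w) :
    LConn (Ins d w)ᶜ := lconn_compl_Ins d (hw.isPreconnected_compl hb)

/-- vertices whose star meets `Q` -/
def Tch (d : ℝ) (Q : Set ℂ) : Set (ℤ × ℤ) := {v | (St d v ∩ Q).Nonempty}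

lemma lconn_Tch (d : ℝ) {Q : Set ℂ} (hQ : IsPreconnected Q) : LConn (Tch d Q) := lconn_touch d hQ

lemma finite_Tch (hd : 0 < d) {Q : Set ℂ} (hQ : Bornology.IsBounded Q) : (Tch d Q).Finite :=
  finite_touch hd hQ

lemma subset_Rl_Tch (d : ℝ) (Q : Set ℂ) : Q ⊆ Rl d (Tch d Q) := sub_touch d Q

lemma fv_mem_Tch {Q : Set ℂ} {z : ℂ} (hz : z ∈ Q) : fv d z ∈ Tch d Q := ⟨z, mem_St_fv d z, hz⟩

lemma Tch_disjoint (hd : 0 < d) {Q Q' : Set ℂ} {η : ℝ} (hη : 4 * d < η)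
    (h : ∀ x ∈ Q, ∀ y ∈ Q', η ≤ dist x y) : Disjoint (Tch d Q) (Tch d Q') := by
  rw [disjoint_left]
  rintro v ⟨z, hz, hzQ⟩ ⟨z', hz', hzQ'⟩
  have h1 := St_subset_closedBall hd v hz
  have h2 := St_subset_closedBall hd v hz'
  rw [mem_closedBall] at h1 h2
  have h3 := dist_triangle_right z z' (pt d v)
  have h4 := h z hzQ z' hzQ'
  linarith

/-- vertices of `Q` stay inside `w` when the mesh is small -/
lemma Tch_subset_Ins (hd : 0 < d) {Q w : Set ℂ} {η : ℝ} (hη : 4 * d ≤ η)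
    (h : cthickening η Q ⊆ w) : Tch d Q ⊆ Ins d w := by
  rintro v ⟨z, hz, hzQ⟩ y hy
  have h1 := St_subset_closedBall hd v hz
  have h2 := St_subset_closedBall hd v hy
  rw [mem_closedBall] at h1 h2
  have h3 := dist_triangle_right y z (pt d v)
  exact h (mem_cthickening_of_dist_le y z η Q hzQ (by linarith))

section Pieces

variable {K w : Set ℂ} {X : Set (ℤ × ℤ)} {𝒬 : Set (Set ℂ)}

lemma Rl_inter (_hd : 0 < d) (hXw : X ⊆ Ins d w) (hcov : K ∩ w ⊆ ⋃ Q ∈ 𝒬, interior Q)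
    (hQ : ∀ Q ∈ 𝒬, Tch d Q ⊆ X ∨ Disjoint (Tch d Q) X) {z : ℂ} (hz : z ∈ Rl d X) (hzK : z ∈ K) :
    ∃ Q ∈ 𝒬, z ∈ interior Q ∧ Q ⊆ Rl d X := by
  obtain ⟨Q, hQQ, hzQ⟩ := mem_iUnion₂.1 (hcov ⟨hzK, Rl_subset_of_subset_Ins hXw hz⟩)
  refine ⟨Q, hQQ, hzQ, ?_⟩
  rcases hQ Q hQQ with h | h
  · exact (subset_Rl_Tch d Q).trans (Rl_mono h)
  · exact absurd (fv_mem hz) (disjoint_left.1 h (fv_mem_Tch (interior_subset hzQ)))

/-- the frontier of `|X|` does not meet `K` -/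
lemma frontier_Rl (hd : 0 < d) (hXw : X ⊆ Ins d w) (hcov : K ∩ w ⊆ ⋃ Q ∈ 𝒬, interior Q)
    (hQ : ∀ Q ∈ 𝒬, Tch d Q ⊆ X ∨ Disjoint (Tch d Q) X) : Disjoint (frontier (Rl d X)) K := by
  rw [disjoint_left]
  intro z hz hzK
  have h1 : z ∈ Rl d X := (isClosed_Rl d X).frontier_subset hz
  obtain ⟨Q, -, hzQ, hsub⟩ := Rl_inter hd hXw hcov hQ h1 hzK
  exact hz.2 (interior_mono hsub hzQ)

/-- the pieces: compact, connected, nontrivial, full, with frontier off `K`, inside `w` -/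
lemma piece_Rl (hd : 0 < d) (hXf : X.Finite) (hXc : LConn X) (hXc' : LConn Xᶜ)
    (hXw : X ⊆ Ins d w) (hcov : K ∩ w ⊆ ⋃ Q ∈ 𝒬, interior Q)
    (hQ : ∀ Q ∈ 𝒬, Tch d Q ⊆ X ∨ Disjoint (Tch d Q) X) (hnt : ∀ Q ∈ 𝒬, Q.Nontrivial)
    (hne : (Rl d X ∩ K).Nonempty) :
    IsCompact (Rl d X) ∧ IsConnected (Rl d X) ∧ (Rl d X).Nontrivial ∧ Full (Rl d X) ∧
      Disjoint (frontier (Rl d X)) K ∧ Rl d X ⊆ w := by
  obtain ⟨z, hz, hzK⟩ := hne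
  obtain ⟨Q, hQQ, -, hsub⟩ := Rl_inter hd hXw hcov hQ hz hzK
  exact ⟨isCompact_Rl hd hXf, ⟨⟨z, hz⟩, isPreconnected_Rl hd hXc⟩, (hnt Q hQQ).mono hsub,
    full_Rl hd hXf hXc', frontier_Rl hd hXw hcov hQ, Rl_subset_of_subset_Ins hXw⟩

/-- the pieces cover `K ∩ w` -/
lemma cover_Rl {𝒳 : Set (Set (ℤ × ℤ))} (hcov : K ∩ w ⊆ ⋃ Q ∈ 𝒬, interior Q)
    (hQ : ∀ Q ∈ 𝒬, ∀ X ∈ 𝒳, Tch d Q ⊆ X ∨ Disjoint (Tch d Q) X)
    (hin : ∀ Q ∈ 𝒬, ∀ v ∈ Tch d Q, ∃ X ∈ 𝒳, v ∈ X) {z : ℂ} (hz : z ∈ K ∩ w) :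
    ∃ X ∈ 𝒳, z ∈ Rl d X := by
  obtain ⟨Q, hQQ, hzQ⟩ := mem_iUnion₂.1 (hcov hz)
  have h1 : fv d z ∈ Tch d Q := fv_mem_Tch (interior_subset hzQ)
  obtain ⟨X, hX, hvX⟩ := hin Q hQQ _ h1
  refine ⟨X, hX, ?_⟩
  rcases hQ Q hQQ X hX with h | h
  · exact Rl_mono h (subset_Rl_Tch d Q (interior_subset hzQ))
  · exact absurd hvX (disjoint_left.1 h h1)

end Pieces

/-- points of `|X|` are near vertices of `X` -/
lemma Rl_near (hd : 0 < d) {X : Set (ℤ × ℤ)} {z : ℂ} (hz : z ∈ Rl d X) :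
    ∃ v ∈ X, dist z (pt d v) ≤ 2 * d ∧ z ∈ St d v :=
  ⟨fv d z, fv_mem hz, St_subset_closedBall hd _ (mem_St_fv d z), mem_St_fv d z⟩

end Vale.Agent.P116.Star
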