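import Mathlib
import Vale.Agent.P116.Cl.H805.StarF
import Vale.Agent.P116.H730.Abs
import Vale.Agent.P116.G.Def

/-!
# From the classes of lattice points to pieces
-/

open Set Filter Topology Metric

namespace Vale.Agent.P116.Star

open H906 H730

/-! ### dictionary -/

lemma Adj.cl {a b : ℤ × ℤ} (h : Adj a b) : Cl a b := by
  obtain ⟨-, h2, h3, h4⟩ := h
  rw [abs_le] at h2 h3 h4
  refine ⟨by omega, by omega, by omega, by omega, by omega, by omega⟩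

lemma adj_of_cl {a b : ℤ × ℤ} (h : Cl a b) (hne : a ≠ b) : Adj a b := by
  obtain ⟨h1, h2, h3, h4, h5, h6⟩ := h
  refine ⟨hne, ?_, ?_, ?_⟩ <;> rw [abs_le] <;> omega

lemma wk_of_rc {X : Set (ℤ × ℤ)} {a b : ℤ × ℤ} (h : RC X a b) : Wk X a b := by
  induction h with
  | refl => exact Relation.ReflTransGen.refl
  | @tail b c _ h2 ih =>
    by_cases hbc : b = c
    · rw [← hbc]; exact ih
    · exact Relation.ReflTransGen.tail ih ⟨h2.2.2, adj_of_cl h2.1 hbc⟩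

lemma rc_of_wk {X : Set (ℤ × ℤ)} {a b : ℤ × ℤ} (ha : a ∈ X) (h : Wk X a b) : RC X a b := by
  induction h with
  | refl => exact RC.refl _
  | @tail b c h1 h2 ih =>
    exact ih.trans (RC.single h2.2.cl (Wk.mem h1 ha) h2.1)

lemma lconn_of_cn {X : Set (ℤ × ℤ)} (h : Cn X) : LConn X :=
  fun a ha b hb => wk_of_rc (h a ha b hb)

lemma cn_of_lconn {X : Set (ℤ × ℤ)} (h : LConn X) : Cn X :=
  fun a ha b hb => rc_of_wk ha (h a ha b hb)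

lemma cl_of_St {d : ℝ} {z : ℂ} {v w : ℤ × ℤ} (hv : z ∈ St d v) (hw : z ∈ St d w) : Cl v w := by
  rcases eq_or_adj hv hw with h | h
  · rw [h]; exact Cl.refl _
  · exact h.cl

lemma cn_Tch (d : ℝ) {Q : Set ℂ} (hQ : IsPreconnected Q) : Cn (Tch d Q) :=
  cn_of_lconn (lconn_Tch d hQ)

lemma cn_compl_Ins (d : ℝ) {w : Set ℂ} (hw : Full w) (hb : Bornology.IsBounded w) :
    Cn (Ins d w)ᶜ := cn_of_lconn (lconn_compl_Ins_of_full d hw hb)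

section Bridge

variable {ι C : Type*} {d : ℝ} {K w : Set ℂ} {lab : Pt → Option (ι ⊕ C)} {𝒬 : Set (Set ℂ)}
  {M : Finset (ι ⊕ Set Pt)} {B : ι ⊕ Set Pt → Set Pt}

/-- the piece of the class `k` -/
def Pk (d : ℝ) (w : Set ℂ) (B : ι ⊕ Set Pt → Set Pt) (k : ι ⊕ Set Pt) : Set ℂ :=
  Rl d (fl (Ins d w) (B k))

/-- the family of pieces -/
def Pks (d : ℝ) (K w : Set ℂ) (M : Finset (ι ⊕ Set Pt)) (B : ι ⊕ Set Pt → Set Pt) :
    Set (Set ℂ) :=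
  {P | ∃ k ∈ M, P = Pk d w B k ∧ (P ∩ K).Nonempty}

/-- the vertices of a node lie in a class or are disjoint from it -/
lemma Tch_cls (hQc : ∀ Q ∈ 𝒬, IsPreconnected Q)
    (hQl : ∀ Q ∈ 𝒬, ∃ l, ∀ v ∈ Tch d Q, lab v = l)
    (h6 : ∀ k, ∀ v ∈ B k, ∀ w, Cl v w → lab v = lab w → w ∈ B k) (k : ι ⊕ Set Pt) :
    ∀ Q ∈ 𝒬, Tch d Q ⊆ B k ∨ Disjoint (Tch d Q) (B k) := by
  intro Q hQ
  by_cases h : Disjoint (Tch d Q) (B k)
  · exact Or.inr h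
  left
  obtain ⟨v, hv, hvB⟩ := not_disjoint_iff.1 h
  intro x hx
  by_contra hxB
  obtain ⟨a, b, ha, hb, haX, hbX, hab⟩ := RC.cross (cn_Tch d (hQc Q hQ) v hv x hx) hvB hxB
  obtain ⟨l, hl⟩ := hQl Q hQ
  exact hbX (h6 k a haX b hab ((hl a ha).trans (hl b hb).symm))

/-- the vertices of a node lie in the fill of a class or are disjoint from it -/
lemma Tch_fl {W : Set Pt} (hQc : ∀ Q ∈ 𝒬, IsPreconnected Q)
    (hQl : ∀ Q ∈ 𝒬, ∃ l, ∀ v ∈ Tch d Q, lab v = l)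
    (h6 : ∀ k, ∀ v ∈ B k, ∀ w, Cl v w → lab v = lab w → w ∈ B k) (k : ι ⊕ Set Pt) :
    ∀ Q ∈ 𝒬, Tch d Q ⊆ fl W (B k) ∨ Disjoint (Tch d Q) (fl W (B k)) := by
  intro Q hQ
  by_cases h : Disjoint (Tch d Q) (fl W (B k))
  · exact Or.inr h
  left
  obtain ⟨v, hv, hvB⟩ := not_disjoint_iff.1 h
  intro x hx
  by_contra hxB
  obtain ⟨a, b, ha, hb, haX, hbX, hab⟩ := RC.cross (cn_Tch d (hQc Q hQ) v hv x hx) hvB hxB
  obtain ⟨l, hl⟩ := hQl Q hQ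
  have h1 : a ∈ B k := fl_edge haX hbX hab
  exact hbX (sub_fl (h6 k a h1 b hab ((hl a ha).trans (hl b hb).symm)))

/-- the hypotheses of the bridge -/
structure Brg (d : ℝ) (K w : Set ℂ) (lab : Pt → Option (ι ⊕ C)) (𝒬 : Set (Set ℂ))
    (M : Finset (ι ⊕ Set Pt)) (B : ι ⊕ Set Pt → Set Pt) : Prop where
  hd : 0 < d
  wc : IsCompact w
  wf : Full w
  ins : ∀ v, lab v ≠ none → v ∈ Ins d w
  cov : K ∩ w ⊆ ⋃ Q ∈ 𝒬, interior Q
  Qc : ∀ Q ∈ 𝒬, IsPreconnected Q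
  Qn : ∀ Q ∈ 𝒬, Q.Nontrivial
  Ql : ∀ Q ∈ 𝒬, ∃ l, ∀ v ∈ Tch d Q, lab v = l
  Qs : ∀ Q ∈ 𝒬, ∀ v ∈ Tch d Q, lab v ≠ none
  h1 : ∀ k ∈ M, (B k).Nonempty ∧ Cn (B k) ∧ ∀ v ∈ B k, lab v ≠ none
  h2 : ∀ k ∈ M, ∀ k' ∈ M, k ≠ k' → Disjoint (fl (Ins d w) (B k)) (fl (Ins d w) (B k'))
  h3 : ∀ v, lab v ≠ none → ∃ k ∈ M, v ∈ fl (Ins d w) (B k)
  h6 : ∀ k, ∀ v ∈ B k, ∀ w, Cl v w → lab v = lab w → w ∈ B k

namespace Brg

variable (h : Brg d K w lab 𝒬 M B)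

include h

lemma finIns : (Ins d w).Finite := finite_Ins h.hd h.wc.isBounded

lemma out : ∃ o, o ∉ Ins d w := h.finIns.exists_notMem

lemma Bsub {k : ι ⊕ Set Pt} (hk : k ∈ M) : B k ⊆ Ins d w :=
  fun v hv => h.ins v ((h.h1 k hk).2.2 v hv)

lemma flsub {k : ι ⊕ Set Pt} (hk : k ∈ M) : fl (Ins d w) (B k) ⊆ Ins d w := fl_sub (h.Bsub hk)

lemma flfin {k : ι ⊕ Set Pt} (hk : k ∈ M) : (fl (Ins d w) (B k)).Finite :=
  h.finIns.subset (h.flsub hk)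

lemma flc {k : ι ⊕ Set Pt} (hk : k ∈ M) : LConn (fl (Ins d w) (B k)) :=
  lconn_of_cn (fl_cn h.out (h.h1 k hk).2.1)

lemma flc' {k : ι ⊕ Set Pt} (hk : k ∈ M) : LConn (fl (Ins d w) (B k))ᶜ := by
  apply lconn_of_cn
  rw [fl, compl_compl]
  exact Yc_cn (h.Bsub hk) (cn_compl_Ins d h.wf h.wc.isBounded)

/-- the pieces are pieces -/
lemma pc {P : Set ℂ} (hP : P ∈ Pks d K w M B) : G.Pc K P ∧ P ⊆ w := by
  obtain ⟨k, hk, rfl, hne⟩ := hP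
  obtain ⟨a1, a2, a3, a4, a5, a6⟩ := piece_Rl h.hd (h.flfin hk) (h.flc hk) (h.flc' hk)
    (h.flsub hk) h.cov (Tch_fl h.Qc h.Ql h.h6 k) h.Qn hne
  exact ⟨⟨a1, a2, a3, a4, a5⟩, a6⟩

lemma dj {P P' : Set ℂ} (hP : P ∈ Pks d K w M B) (hP' : P' ∈ Pks d K w M B) (hne : P ≠ P') :
    Disjoint P P' := by
  obtain ⟨k, hk, rfl, -⟩ := hP
  obtain ⟨k', hk', rfl, -⟩ := hP'
  exact Rl_disjoint (h.h2 k hk k' hk' fun e => hne (by rw [e]))

omit h in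
lemma fin : (Pks d K w M B).Finite := by
  refine ((M.finite_toSet).image fun k => Pk d w B k).subset ?_
  rintro P ⟨k, hk, rfl, -⟩
  exact ⟨k, hk, rfl⟩

/-- the pieces cover -/
lemma cover {z : ℂ} (hz : z ∈ K ∩ w) : ∃ P ∈ Pks d K w M B, z ∈ P := by
  obtain ⟨X, ⟨k, hk, rfl⟩, hzX⟩ := cover_Rl (d := d)
    (𝒳 := {X | ∃ k ∈ M, X = fl (Ins d w) (B k)}) h.cov
    (by
      rintro Q hQ X ⟨k, hk, rfl⟩
      exact Tch_fl h.Qc h.Ql h.h6 k Q hQ)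
    (by
      intro Q hQ v hv
      obtain ⟨k, hk, hvk⟩ := h.h3 v (h.Qs Q hQ v hv)
      exact ⟨_, ⟨k, hk, rfl⟩, hvk⟩) hz
  exact ⟨Pk d w B k, ⟨k, hk, rfl, ⟨z, hzX, hz.1⟩⟩, hzX⟩

/-- the pieces form a structure inside `w` -/
lemma ns : G.NS K w (Pks d K w M B) where
  fin := fin
  pc _ hP := (h.pc hP).1
  disj _ hP _ hP' hne := h.dj hP hP' hne
  sub _ hP := (h.pc hP).2

/-- the index of a piece is unique -/
lemma inj {k k' : ι ⊕ Set Pt} (hk : k ∈ M) (hk' : k' ∈ M)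
    (hne : (Pk d w B k ∩ K).Nonempty) (he : Pk d w B k = Pk d w B k') : k = k' := by
  by_contra hkk
  obtain ⟨z, hz, -⟩ := hne
  have hz' : z ∈ Pk d w B k' := by rw [← he]; exact hz
  exact disjoint_left.1 (Rl_disjoint (d := d) (h.h2 k hk k' hk' hkk)) hz hz'

/-- the core of a piece: a compact connected set with frontier off `K`, such that the piece is
contained in the filled core -/
lemma core {k : ι ⊕ Set Pt} (hk : k ∈ M) :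
    IsCompact (Rl d (B k)) ∧ IsConnected (Rl d (B k)) ∧ Disjoint (frontier (Rl d (B k))) K ∧
      Rl d (B k) ⊆ w ∧ Pk d w B k ⊆ fil (Rl d (B k)) ∧ Rl d (B k) ⊆ Pk d w B k := by
  have hfin : (B k).Finite := h.finIns.subset (h.Bsub hk)
  obtain ⟨hne, hcn, -⟩ := h.h1 k hk
  obtain ⟨b, hb⟩ := hne
  refine ⟨isCompact_Rl h.hd hfin, ⟨⟨pt d b, pt_mem_Rl h.hd hb⟩,
    isPreconnected_Rl h.hd (lconn_of_cn hcn)⟩, ?_, Rl_subset_of_subset_Ins (h.Bsub hk), ?_,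
    Rl_mono sub_fl⟩
  · exact frontier_Rl h.hd (h.Bsub hk) h.cov (Tch_cls h.Qc h.Ql h.h6 k)
  · refine Rl_subset_fil h.hd (h.flfin hk) ?_
    intro v hv hvB v' hvv' hv'B
    by_contra hcon
    exact hvB (fl_edge hv hcon hvv'.cl)

end Brg

/-- number of pieces with a given property of the index -/
lemma card_Pks_le [DecidableEq (ι ⊕ Set Pt)]
    (p : ι ⊕ Set Pt → Prop) [DecidablePred p] :
    {P | ∃ k ∈ M, P = Pk d w B k ∧ (P ∩ K).Nonempty ∧ p k}.ncard ≤ (M.filter p).card := by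
  have h1 : {P | ∃ k ∈ M, P = Pk d w B k ∧ (P ∩ K).Nonempty ∧ p k} ⊆
      (fun k => Pk d w B k) '' (↑(M.filter p) : Set (ι ⊕ Set Pt)) := by
    rintro P ⟨k, hk, rfl, -, hp⟩
    exact ⟨k, Finset.mem_coe.2 (Finset.mem_filter.2 ⟨hk, hp⟩), rfl⟩
  refine (ncard_le_ncard h1 (Set.Finite.image _ (Finset.finite_toSet _))).trans ?_
  refine (ncard_image_le (Finset.finite_toSet _)).trans ?_
  rw [ncard_coe_finset]

end Bridge

end Vale.Agent.P116.Star
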