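import Mathlib
import Vale.Agent.P116.KB.H178.Sub
import Vale.Agent.P116.Cl.H805.Loc

/-!
# Full Koebe, [7]: the adaptation lemma from its local form

Choose a finite set `F` of components outside of which the square oscillations are small, then a
level `m` such that the energies and the area of the part of the node in `lev K m` are small, and
use the local form at the nodes of level `m`.
-/

open Set Filter Topology Metric Bornology MeasureTheory
open scoped ENNReal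

namespace Vale.Agent.P116.AD

open H906 KB KF KB.H178

variable {K w : Set ℂ}

/-- integrals over late levels are small -/
lemma exists_small (hK : IsCompact K) (hf : Full K) (hw : MeasurableSet w) {f : ℂ → ℝ≥0∞}
    (hfin : ∫⁻ z in w \ K, f z < ⊤) {ε : ℝ≥0∞} (hε : 0 < ε) :
    ∃ m₀, ∀ m ≥ m₀, ∫⁻ z in (w ∩ lev K m) \ K, f z < ε := by
  set ν : Measure ℂ := volume.withDensity f with hν
  have hm : ∀ m, MeasurableSet ((w ∩ lev K m) \ K) := fun m =>
    (hw.inter (isClosed_lev m).measurableSet).diff hK.isClosed.measurableSet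
  have h1 : Tendsto (fun m => ν ((w ∩ lev K m) \ K)) atTop (𝓝 (ν (⋂ m, (w ∩ lev K m) \ K))) := by
    refine tendsto_measure_iInter_atTop (fun m => (hm m).nullMeasurableSet) ?_ ⟨0, ?_⟩
    · exact fun m m' h => sdiff_subset_sdiff_left (inter_subset_inter_right _ (lev_anti h))
    · rw [hν, withDensity_apply _ (hm 0)]
      exact ((lintegral_mono_set (sdiff_subset_sdiff_left inter_subset_left)).trans_lt hfin).ne
  have h2 : (⋂ m, (w ∩ lev K m) \ K) = ∅ := by
    rw [eq_empty_iff_forall_notMem]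
    intro z hz
    rw [mem_iInter] at hz
    have h3 : z ∈ ⋂ m, lev K m := mem_iInter.2 fun m => (hz m).1.2
    rw [iInter_lev hK hf] at h3
    exact (hz 0).2 h3
  rw [h2, measure_empty] at h1
  obtain ⟨m₀, hm₀⟩ := eventually_atTop.1 (h1.eventually (gt_mem_nhds hε))
  refine ⟨m₀, fun m hmm => ?_⟩
  have h3 := hm₀ m hmm
  rwa [hν, withDensity_apply _ (hm m)] at h3

/-- sum of integrals over disjoint nodes -/
lemma sum_int_le {N : Finset (Set ℂ)} (hN : ∀ Q ∈ N, ∀ Q' ∈ N, Q ≠ Q' → Disjoint Q Q')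
    (hK : IsCompact K) (hc : ∀ Q ∈ N, IsCompact Q) {A : Set ℂ} (hA : ∀ Q ∈ N, Q ⊆ A)
    {f : ℂ → ℝ≥0∞} (hfin : ∫⁻ z in A \ K, f z ≠ ⊤) :
    ∑ Q ∈ N, (∫⁻ z in Q \ K, f z).toReal ≤ (∫⁻ z in A \ K, f z).toReal := by
  have h1 : ∀ Q ∈ N, ∫⁻ z in Q \ K, f z ≠ ⊤ := fun Q hQ =>
    ne_top_of_le_ne_top hfin (lintegral_mono_set (sdiff_subset_sdiff_left (hA Q hQ)))
  rw [← ENNReal.toReal_sum h1]
  refine ENNReal.toReal_mono hfin ?_
  rw [← lintegral_biUnion_finset (μ := volume) (t := fun Q : Set ℂ => Q \ K)]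
  · exact lintegral_mono_set (iUnion₂_subset fun Q hQ => sdiff_subset_sdiff_left (hA Q hQ))
  · intro Q hQ Q' hQ' hne
    exact (hN Q hQ Q' hQ' hne).mono sdiff_subset sdiff_subset
  · exact fun Q hQ => (hc Q hQ).isClosed.measurableSet.diff hK.isClosed.measurableSet

open Classical in
/-- the part of `a` inside `Q` -/
noncomputable def Vq (K : Set ℂ) (a : comps K → ℝ) (Q : Set ℂ) : ℝ :=
  ∑' c : comps K, if (c : Set ℂ) ⊆ Q then a c else 0

lemma Vq_summable {a : comps K → ℝ} (ha : ∀ c, 0 ≤ a c) (hs : Summable a)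
    (p : comps K → Prop) [DecidablePred p] :
    Summable fun c : comps K => if p c then a c else 0 := by
  refine Summable.of_nonneg_of_le (fun c => ?_) (fun c => ?_) hs
  · split_ifs
    · exact ha c
    · exact le_rfl
  · split_ifs
    · exact le_rfl
    · exact ha c

lemma sum_Vq_le {a : comps K → ℝ} (ha : ∀ c, 0 ≤ a c) (hs : Summable a) {N : Finset (Set ℂ)}
    (hN : ∀ Q ∈ N, ∀ Q' ∈ N, Q ≠ Q' → Disjoint Q Q') : ∑ Q ∈ N, Vq K a Q ≤ ∑' c, a c := by
  classical
  unfold Vq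
  have hs' : ∀ Q ∈ N, Summable fun c : comps K => if (c : Set ℂ) ⊆ Q then a c else 0 :=
    fun Q _ => Vq_summable ha hs _
  rw [← Summable.tsum_finsetSum hs']
  refine (summable_sum hs').tsum_le_tsum (fun c => ?_) hs
  by_cases hc : ∃ Q ∈ N, (c : Set ℂ) ⊆ Q
  · obtain ⟨Q, hQ, hcQ⟩ := hc
    rw [Finset.sum_eq_single Q]
    · rw [if_pos hcQ]
    · intro Q' hQ' hne
      rw [if_neg]
      intro hcQ'
      obtain ⟨z, hz⟩ := Slow.comps_nonempty c.2
      exact disjoint_left.1 (hN Q' hQ' Q hQ hne) (hcQ' hz) (hcQ hz)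
    · exact fun h' => absurd hQ h'
  · rw [Finset.sum_eq_zero]
    · exact ha c
    · intro Q hQ
      rw [if_neg]
      exact fun hcQ => hc ⟨Q, hQ, hcQ⟩

/-- the total square oscillations over disjoint nodes -/
lemma sum_Eo_le' {u : ℂ → ℝ} (hs : Summable fun c : comps K => oc K w u c) {N : Finset (Set ℂ)}
    (hN : ∀ Q ∈ N, ∀ Q' ∈ N, Q ≠ Q' → Disjoint Q Q') (hw : ∀ Q ∈ N, Q ⊆ w) :
    ∑ Q ∈ N, Eo K Q u ≤ Eo K w u := by
  classical
  have h1 : ∀ Q ∈ N, Eo K Q u = Vq K (fun c : comps K => oc K w u c) Q := by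
    intro Q hQ
    unfold Eo Vq
    refine tsum_congr fun c => ?_
    by_cases hc : (c : Set ℂ) ⊆ Q
    · simp only [oc, if_pos hc, if_pos (hc.trans (hw Q hQ))]
    · simp only [oc, if_neg hc]
  rw [Finset.sum_congr rfl h1]
  exact sum_Vq_le (fun c => oc_nonneg (c : Set ℂ)) hs hN

/-- **[7] from its local form**, for `Fin N` -/
theorem ad_fin (h : LocAD) (hK : IsCompact K) (hf : Full K) {n : ℕ} {x : ℂ} {N : ℕ}
    {u ρ : Fin N → ℂ → ℝ} (hu : ∀ i, Hon K (nd K n x) (u i) (ρ i))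
    (hmon : ∀ i, SMon K (nd K n x) (u i))
    (hZ : ∀ i j, i ≠ j → volume (Zs K (nd K n x) (u i) (u j)) = 0) {δ : ℝ} (hδ : 0 < δ) :
    ∃ S, G.NS K (nd K n x) S ∧ (∀ y ∈ K, y ∈ nd K n x → ∃ P ∈ S, y ∈ P) ∧
      ∀ i, ∑ᶠ P ∈ S, oscS K (u i) P ^ 2 ≤ Eo K (nd K n x) (u i) + δ := by
  classical
  obtain ⟨C, hC, hloc⟩ := h N
  set w := nd K n x with hw
  have hwc : IsCompact w := isCompact_nd hK n x
  have hwm : MeasurableSet w := hwc.isClosed.measurableSet
  -- the small number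
  set η : ℝ := δ / (4 * (C + 1)) with hη
  have hη0 : 0 < η := by positivity
  have hCη : C * η ≤ δ / 4 := by
    rw [hη]
    have : C * (δ / (4 * (C + 1))) = (δ / 4) * (C / (C + 1)) := by field_simp
    rw [this]
    have h2 : C / (C + 1) ≤ 1 := by
      rw [div_le_one (by linarith)]
      linarith
    nlinarith [mul_le_mul_of_nonneg_left h2 (show (0:ℝ) ≤ δ / 4 by positivity)]
  -- the big components
  set a₀ : comps K → ℝ := fun c => ∑ i, oc K w (u i) c with ha₀
  have ha₀0 : ∀ c, 0 ≤ a₀ c := fun c => Finset.sum_nonneg fun i _ => oc_nonneg (c : Set ℂ)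
  have hs₀ : Summable a₀ := summable_sum fun i _ => (hu i).sum'
  obtain ⟨s, hs⟩ : ∃ s : Finset (comps K), ∑' c, a₀ c - η < ∑ c ∈ s, a₀ c :=
    (hs₀.hasSum.eventually (lt_mem_nhds (show ∑' c, a₀ c - η < ∑' c, a₀ c by linarith))).exists
  set F : Finset (Set ℂ) := s.image Subtype.val with hF
  set a : comps K → ℝ := fun c => if (c : Set ℂ) ∈ F then 0 else a₀ c with ha
  have ha0 : ∀ c, 0 ≤ a c := by
    intro c
    rw [ha]
    dsimp only
    split_ifs
    · exact le_rfl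
    · exact ha₀0 c
  have hsa : Summable a := by
    refine Summable.of_nonneg_of_le ha0 (fun c => ?_) hs₀
    rw [ha]
    dsimp only
    split_ifs
    · exact ha₀0 c
    · exact le_rfl
  have hatot : ∑' c, a c ≤ η := by
    have h1 : HasSum (fun c => if c ∈ s then a₀ c else 0)
        (∑ c ∈ s, if c ∈ s then a₀ c else 0) :=
      hasSum_sum_of_ne_finset_zero fun c hc => if_neg hc
    rw [Finset.sum_congr rfl (g := a₀) (fun c hc => if_pos hc)] at h1
    have h3 := hs₀.hasSum.sub h1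
    have h4 : (fun c => a₀ c - if c ∈ s then a₀ c else 0) = a := by
      funext c
      rw [ha]
      dsimp only
      have h5 : (c : Set ℂ) ∈ F ↔ c ∈ s := by
        rw [hF, Finset.mem_image]
        constructor
        · rintro ⟨d, hd, hdc⟩
          rwa [← Subtype.ext hdc]
        · exact fun hc => ⟨c, hc, rfl⟩
      by_cases hc : c ∈ s
      · rw [if_pos hc, if_pos (h5.2 hc), sub_self]
      · rw [if_neg hc, if_neg (fun h => hc (h5.1 h)), sub_zero]
    rw [h4] at h3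
    rw [h3.tsum_eq]
    linarith
  -- the level
  set f : Fin N → ℂ → ℝ≥0∞ := fun i z => ENNReal.ofReal (ρ i z ^ 2) + 1 with hff
  have hffin : ∀ i, ∫⁻ z in w \ K, f i z < ⊤ := by
    intro i
    rw [hff]
    dsimp only
    rw [lintegral_add_right _ measurable_const, ENNReal.add_lt_top]
    refine ⟨(hu i).en, ?_⟩
    rw [lintegral_const, one_mul, Measure.restrict_apply MeasurableSet.univ, univ_inter]
    exact (measure_mono sdiff_subset).trans_lt hwc.measure_lt_top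
  have hlev : ∀ i, ∃ m₀, ∀ m ≥ m₀,
      ∫⁻ z in (w ∩ lev K m) \ K, f i z < ENNReal.ofReal (η / (N + 1)) := fun i =>
    exists_small hK hf hwm (hffin i) (ENNReal.ofReal_pos.2 (by positivity))
  choose m₀ hm₀ using hlev
  set m : ℕ := n + ∑ i, m₀ i with hm
  have hmi : ∀ i, m₀ i ≤ m := fun i => by
    have := Finset.single_le_sum (f := m₀) (fun j _ => Nat.zero_le _) (Finset.mem_univ i)
    omega
  have hnm : n ≤ m := by omega
  -- the nodes
  have hfin : (nw K w m).Finite := nw_fin hK m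
  set T : Finset (Set ℂ) := hfin.toFinset with hT
  have hTm : ∀ Q, Q ∈ T ↔ Q ∈ nw K w m := fun Q => hfin.mem_toFinset
  have hTd : ∀ Q ∈ T, ∀ Q' ∈ T, Q ≠ Q' → Disjoint Q Q' := fun Q hQ Q' hQ' hne =>
    nw_disj ((hTm Q).1 hQ) ((hTm Q').1 hQ') hne
  have hTw : ∀ Q ∈ T, Q ⊆ w := fun Q hQ => nw_sub hnm ((hTm Q).1 hQ)
  have hTc : ∀ Q ∈ T, IsCompact Q := by
    intro Q hQ
    obtain ⟨y, -, rfl⟩ := (hTm Q).1 hQ
    exact isCompact_nd hK m y
  have hTl : ∀ Q ∈ T, Q ⊆ w ∩ lev K m := by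
    intro Q hQ
    refine subset_inter (hTw Q hQ) ?_
    obtain ⟨y, -, rfl⟩ := (hTm Q).1 hQ
    exact nd_subset m y
  -- the numbers of the nodes
  set AA : Set ℂ → ℝ := fun Q => ∑ i, (∫⁻ z in Q \ K, f i z).toReal with hAA
  set δ' : ℝ := δ / (4 * (T.card + 1)) with hδ'
  have hδ'0 : 0 < δ' := by positivity
  have key : ∀ Q : Set ℂ, ∃ S : Set (Set ℂ), Q ∈ nw K w m → G.NS K Q S ∧
      (∀ y ∈ K, y ∈ Q → ∃ P ∈ S, y ∈ P) ∧
      ∀ i, ∑ᶠ P ∈ S, oscS K (u i) P ^ 2 ≤ Eo K Q (u i) + C * (Vq K a Q + AA Q) + δ' := by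
    intro Q
    by_cases hQ : Q ∈ nw K w m
    · have hQT := (hTm Q).2 hQ
      have hQw := hTw Q hQT
      obtain ⟨y, ⟨hy, hyw⟩, rfl⟩ := hQ
      have hV : ∀ i, ∀ J : Finset (Set ℂ), (∀ c ∈ J, c ∈ comps K ∧ c ⊆ nd K m y ∧ c ∉ F) →
          ∑ c ∈ J, oscC K (u i) c ^ 2 ≤ Vq K a (nd K m y) := by
        intro i J hJ
        have hJ0 : ∀ c ∈ J, c ∈ comps K := fun c hc => (hJ c hc).1
        have e1 : ∑ c ∈ J, oscC K (u i) c ^ 2 =
            ∑ c ∈ J.subtype (fun c => c ∈ comps K), oscC K (u i) (c : Set ℂ) ^ 2 := by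
          rw [Finset.sum_subtype_eq_sum_filter (f := fun c => oscC K (u i) c ^ 2),
            Finset.filter_true_of_mem hJ0]
        rw [e1]
        calc ∑ c ∈ J.subtype (fun c => c ∈ comps K), oscC K (u i) (c : Set ℂ) ^ 2
            ≤ ∑ c ∈ J.subtype (fun c => c ∈ comps K),
                (if (c : Set ℂ) ⊆ nd K m y then a c else 0) := by
              refine Finset.sum_le_sum fun c hc => ?_
              have hc' := hJ (c : Set ℂ) (by rwa [Finset.mem_subtype] at hc)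
              rw [if_pos hc'.2.1, ha]
              dsimp only
              rw [if_neg hc'.2.2, ha₀]
              dsimp only
              have e2 : oscC K (u i) (c : Set ℂ) ^ 2 = oc K w (u i) c := by
                rw [oc, if_pos (hc'.2.1.trans hQw)]
              rw [e2]
              exact Finset.single_le_sum (f := fun i => oc K w (u i) c)
                (fun j _ => oc_nonneg (c : Set ℂ)) (Finset.mem_univ i)
          _ ≤ Vq K a (nd K m y) := by
              refine (Vq_summable ha0 hsa _).sum_le_tsum _ fun c _ => ?_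
              split_ifs
              · exact ha0 c
              · exact le_rfl
      have hA : ∀ i, (∫⁻ z in nd K m y \ K, (ENNReal.ofReal (ρ i z ^ 2) + 1)).toReal ≤
          AA (nd K m y) := fun i =>
        Finset.single_le_sum (f := fun i => (∫⁻ z in nd K m y \ K, f i z).toReal)
          (fun j _ => ENNReal.toReal_nonneg) (Finset.mem_univ i)
      obtain ⟨S, hS1, hS2, hS3⟩ := hloc hK hf (n := m) hy (u := u) (ρ := ρ)
        (fun i => hon_mono hQw (hu i)) (fun i => smon_mono hK hQw (hmon i))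
        (fun i j hij => measure_mono_null (zs_mono hQw) (hZ i j hij)) F hV hA hδ'0
      exact ⟨S, fun _ => ⟨hS1, hS2, hS3⟩⟩
    · exact ⟨∅, fun h => absurd h hQ⟩
  choose S hS using key
  have hpd : (nw K w m).PairwiseDisjoint S := by
    intro Q hQ Q' hQ' hne
    rw [Function.onFun, disjoint_left]
    intro P hP hP'
    obtain ⟨z, hz⟩ := ((hS Q hQ).1.pc P hP).nonempty
    exact disjoint_left.1 (nw_disj hQ hQ' hne) ((hS Q hQ).1.sub P hP hz)
      ((hS Q' hQ').1.sub P hP' hz)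
  refine ⟨⋃ Q ∈ nw K w m, S Q, ⟨?_, ?_, ?_, ?_⟩, ?_, ?_⟩
  · exact hfin.biUnion fun Q hQ => (hS Q hQ).1.fin
  · intro P hP
    obtain ⟨Q, hQ, hPQ⟩ := mem_iUnion₂.1 hP
    exact (hS Q hQ).1.pc P hPQ
  · intro P hP P' hP' hne
    obtain ⟨Q, hQ, hPQ⟩ := mem_iUnion₂.1 hP
    obtain ⟨Q', hQ', hPQ'⟩ := mem_iUnion₂.1 hP'
    by_cases hQQ : Q = Q'
    · subst hQQ
      exact (hS Q hQ).1.disj P hPQ P' hPQ' hne
    · exact (nw_disj hQ hQ' hQQ).mono ((hS Q hQ).1.sub P hPQ) ((hS Q' hQ').1.sub P' hPQ')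
  · intro P hP
    obtain ⟨Q, hQ, hPQ⟩ := mem_iUnion₂.1 hP
    exact ((hS Q hQ).1.sub P hPQ).trans (nw_sub hnm hQ)
  · intro y hy hyw
    have hQ : nd K m y ∈ nw K w m := ⟨y, ⟨hy, hyw⟩, rfl⟩
    obtain ⟨P, hP, hyP⟩ := (hS _ hQ).2.1 y hy (mem_nd hy m)
    exact ⟨P, mem_iUnion₂.2 ⟨_, hQ, hP⟩, hyP⟩
  · intro i
    rw [finsum_mem_biUnion hpd hfin (fun Q hQ => (hS Q hQ).1.fin),
      finsum_mem_eq_finite_toFinset_sum _ hfin, ← hT]
    have e1 : ∑ Q ∈ T, ∑ᶠ P ∈ S Q, oscS K (u i) P ^ 2 ≤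
        ∑ Q ∈ T, (Eo K Q (u i) + C * (Vq K a Q + AA Q) + δ') :=
      Finset.sum_le_sum fun Q hQ => (hS Q ((hTm Q).1 hQ)).2.2 i
    refine e1.trans ?_
    rw [Finset.sum_add_distrib, Finset.sum_add_distrib, ← Finset.mul_sum, Finset.sum_add_distrib,
      Finset.sum_const, nsmul_eq_mul]
    have e2 : ∑ Q ∈ T, Eo K Q (u i) ≤ Eo K w (u i) := sum_Eo_le' (hu i).sum' hTd hTw
    have e3 : ∑ Q ∈ T, Vq K a Q ≤ η := (sum_Vq_le ha0 hsa hTd).trans hatot
    have e4 : ∑ Q ∈ T, AA Q ≤ η := by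
      rw [hAA, Finset.sum_comm]
      have e5 : ∀ j : Fin N, ∑ Q ∈ T, (∫⁻ z in Q \ K, f j z).toReal ≤ η / (N + 1) := by
        intro j
        have h1 := hm₀ j m (hmi j)
        refine (sum_int_le hTd hK hTc hTl h1.ne_top).trans ?_
        exact ENNReal.toReal_le_of_le_ofReal (by positivity) h1.le
      refine (Finset.sum_le_sum fun j _ => e5 j).trans ?_
      rw [Finset.sum_const, Finset.card_univ, Fintype.card_fin, nsmul_eq_mul]
      rw [mul_div_assoc', div_le_iff₀ (by positivity)]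
      nlinarith
    have e6 : (T.card : ℝ) * δ' ≤ δ / 4 := by
      rw [hδ', mul_div_assoc', div_le_div_iff₀ (by positivity) (by positivity)]
      have : (0 : ℝ) ≤ T.card := Nat.cast_nonneg _
      nlinarith
    have e7 : C * (∑ Q ∈ T, Vq K a Q + ∑ Q ∈ T, AA Q) ≤ C * (η + η) :=
      mul_le_mul_of_nonneg_left (add_le_add e3 e4) hC
    linarith

/-- **[7] from its local form** -/
theorem ad_of_loc (h : LocAD) : KF.AD := by
  intro K hK hf n x _ ι _ u hu hmon hZ δ hδ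
  obtain ⟨N, ⟨e⟩⟩ := Finite.exists_equiv_fin ι
  choose ρ hρ using hu
  obtain ⟨S, h1, h2, h3⟩ := ad_fin h hK hf (n := n) (x := x) (u := fun i => u (e.symm i))
    (ρ := fun i => ρ (e.symm i)) (fun i => hρ _) (fun i => hmon _)
    (fun i j hij => hZ _ _ fun h' => hij (e.symm.injective h')) hδ
  refine ⟨S, h1, h2, fun i => ?_⟩
  have := h3 (e i)
  simpa using this

end Vale.Agent.P116.AD
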